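import Vale.Agent.P139Z.Free.Lap

/-! The outgoing solution of the free equation as a Laplace integral. -/

open Set Filter Topology MeasureTheory Complex
open scoped NNReal ENNReal ComplexConjugate ContDiff

namespace Vale.Agent.P139Z.Free

/-- The factor `(1 + 4it)^c`. -/
noncomputable def pw (c : ℂ) (t : ℝ) : ℂ := (1 + 4 * I * t) ^ c

theorem base_mem (t : ℝ) : (1 + 4 * I * t : ℂ) ∈ slitPlane := by
  left
  simp

theorem base_ne (t : ℝ) : (1 + 4 * I * t : ℂ) ≠ 0 := slitPlane_ne_zero (base_mem t)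

theorem pw_zero (c : ℂ) : pw c 0 = 1 := by simp [pw]

theorem pw_succ (c : ℂ) (t : ℝ) : pw (c + 1) t = pw c t * (1 + 4 * I * t) := by
  rw [pw, pw, cpow_add _ _ (base_ne t), cpow_one]

theorem pw_hasDerivAt (c : ℂ) (t : ℝ) : HasDerivAt (pw c) (c * pw (c - 1) t * (4 * I)) t := by
  have h1 : HasDerivAt (fun z : ℂ => 1 + 4 * I * z) (4 * I) (t : ℂ) := by
    simpa using ((hasDerivAt_id (t : ℂ)).const_mul (4 * I)).const_add 1
  exact (h1.cpow_const (c := c) (base_mem t)).comp_ofReal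

theorem pw_cont (c : ℂ) : Continuous (pw c) :=
  continuous_iff_continuousAt.2 fun t => (pw_hasDerivAt c t).continuousAt

theorem pw_bound (c : ℂ) :
    ∃ C N : ℝ, 0 ≤ C ∧ 0 ≤ N ∧ ∀ t : ℝ, 0 ≤ t → ‖pw c t‖ ≤ C * (1 + t ^ N) := by
  refine ⟨Real.exp (Real.pi * |c.im|) * 5 ^ |c.re|, |c.re|, by positivity, abs_nonneg _,
    fun t ht => ?_⟩
  set z : ℂ := 1 + 4 * I * t with hz
  have h1 : 1 ≤ ‖z‖ := by
    have := Complex.re_le_norm z
    simpa [hz] using this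
  have h2 : ‖z‖ ≤ 1 + 4 * t := by
    refine (norm_add_le _ _).trans ?_
    simp [abs_of_nonneg ht]
  have h3 : ‖z‖ ^ c.re ≤ (1 + 4 * t) ^ |c.re| :=
    (Real.rpow_le_rpow_of_exponent_le h1 (le_abs_self _)).trans
      (Real.rpow_le_rpow (norm_nonneg _) h2 (abs_nonneg _))
  have h4 : (1 + 4 * t) ^ |c.re| ≤ 5 ^ |c.re| * (1 + t ^ |c.re|) := by
    have p1 : (0 : ℝ) ≤ 5 ^ |c.re| := by positivity
    have p2 : (0 : ℝ) ≤ t ^ |c.re| := by positivity
    rcases le_total t 1 with h | h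
    · have : (1 + 4 * t) ^ |c.re| ≤ 5 ^ |c.re| :=
        Real.rpow_le_rpow (by linarith) (by linarith) (abs_nonneg _)
      nlinarith
    · have : (1 + 4 * t) ^ |c.re| ≤ (5 * t) ^ |c.re| :=
        Real.rpow_le_rpow (by linarith) (by linarith) (abs_nonneg _)
      rw [Real.mul_rpow (by norm_num) ht] at this
      nlinarith
  have h5 : (Real.exp (arg z * c.im))⁻¹ ≤ Real.exp (Real.pi * |c.im|) := by
    rw [← Real.exp_neg]
    apply Real.exp_le_exp.2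
    calc -(arg z * c.im) ≤ |arg z * c.im| := neg_le_abs _
      _ = |arg z| * |c.im| := abs_mul _ _
      _ ≤ Real.pi * |c.im| := mul_le_mul_of_nonneg_right (abs_arg_le_pi z) (abs_nonneg _)
  calc ‖pw c t‖ = ‖z‖ ^ c.re * (Real.exp (arg z * c.im))⁻¹ := by
        rw [pw, ← hz, norm_cpow_of_ne_zero (base_ne t), div_eq_mul_inv]
    _ ≤ (5 ^ |c.re| * (1 + t ^ |c.re|)) * Real.exp (Real.pi * |c.im|) :=
        mul_le_mul (h3.trans h4) h5 (by positivity) (by positivity)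
    _ = _ := by ring

theorem pw_sub_one (c : ℂ) :
    ∃ C N : ℝ, 0 ≤ C ∧ 0 ≤ N ∧ ∀ t : ℝ, 0 ≤ t → ‖pw c t - 1‖ ≤ C * (1 + t ^ N) * t := by
  obtain ⟨C, N, hC, hN, h⟩ := pw_bound (c - 1)
  refine ⟨‖c‖ * C * 4, N, by positivity, hN, fun t ht => ?_⟩
  have := Convex.norm_image_sub_le_of_norm_hasDerivWithin_le (f := pw c)
    (f' := fun s => c * pw (c - 1) s * (4 * I)) (s := Icc 0 t) (x := 0) (y := t)
    (C := ‖c‖ * C * 4 * (1 + t ^ N))
    (fun s _ => (pw_hasDerivAt c s).hasDerivWithinAt) (fun s hs => ?_) (convex_Icc 0 t)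
    (left_mem_Icc.2 ht) (right_mem_Icc.2 ht)
  · rwa [pw_zero, sub_zero, Real.norm_eq_abs, abs_of_nonneg ht] at this
  · have h1 : s ^ N ≤ t ^ N := Real.rpow_le_rpow hs.1 hs.2 hN
    have h2 : ‖pw (c - 1) s‖ ≤ C * (1 + t ^ N) := (h s hs.1).trans (by gcongr)
    rw [norm_mul, norm_mul, norm_mul, norm_I, mul_one]
    have h4 : ‖(4 : ℂ)‖ = 4 := by simp
    rw [h4]
    calc ‖c‖ * ‖pw (c - 1) s‖ * 4 ≤ ‖c‖ * (C * (1 + t ^ N)) * 4 := by gcongr
      _ = _ := by ring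

theorem cpow_contOn (c : ℂ) : ContinuousOn (fun t : ℝ => (t : ℂ) ^ c) (Ioi 0) := fun t ht =>
  (continuousAt_ofReal_cpow_const t c (Or.inr (ne_of_gt ht))).continuousWithinAt

theorem ker_pw {A : ℂ} (hA : 0 < A.re) (c : ℂ) :
    Ker A.re (fun t : ℝ => (t : ℂ) ^ (A - 1) * pw c t) := by
  obtain ⟨C, N, hC, hN, h⟩ := pw_bound c
  refine ⟨hA, (cpow_contOn _).mul (pw_cont c).continuousOn, C, A.re + N, hC, by linarith,
    fun t ht => ?_⟩
  rw [norm_mul, norm_cpow_eq_rpow_re_of_pos ht, sub_re, one_re,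
    show A.re + N - 1 = (A.re - 1) + N by ring, Real.rpow_add ht]
  have p : 0 ≤ t ^ (A.re - 1) := by positivity
  calc t ^ (A.re - 1) * ‖pw c t‖ ≤ t ^ (A.re - 1) * (C * (1 + t ^ N)) :=
        mul_le_mul_of_nonneg_left (h t ht.le) p
    _ = _ := by ring

theorem ker_sub {A : ℂ} (hA : 0 < A.re) (c : ℂ) :
    Ker (A.re + 1) (fun t : ℝ => (t : ℂ) ^ (A - 1) * (pw c t - 1)) := by
  obtain ⟨C, N, hC, hN, h⟩ := pw_sub_one c
  refine ⟨by linarith, (cpow_contOn _).mul ((pw_cont c).continuousOn.sub continuousOn_const), C,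
    A.re + 1 + N, hC, by linarith, fun t ht => ?_⟩
  have e1 : t ^ (A.re + 1 - 1) = t ^ (A.re - 1) * t := by
    rw [show A.re + 1 - 1 = (A.re - 1) + 1 by ring, Real.rpow_add ht, Real.rpow_one]
  rw [norm_mul, norm_cpow_eq_rpow_re_of_pos ht, sub_re, one_re,
    show A.re + 1 + N - 1 = (A.re + 1 - 1) + N by ring, Real.rpow_add ht, e1]
  have p : 0 ≤ t ^ (A.re - 1) := by positivity
  calc t ^ (A.re - 1) * ‖pw c t - 1‖ ≤ t ^ (A.re - 1) * (C * (1 + t ^ N) * t) :=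
        mul_le_mul_of_nonneg_left (h t ht.le) p
    _ = _ := by ring

theorem ker_one {A : ℂ} (hA : 0 < A.re) : Ker A.re (fun t : ℝ => (t : ℂ) ^ (A - 1)) := by
  have := ker_pw hA 0
  simpa [pw] using this

theorem lap_ode {A : ℂ} (hA : 0 < A.re) (B : ℕ) {ρ : ℝ} (hρ : 0 < ρ) :
    Mop A B (lap fun t : ℝ => (t : ℂ) ^ (A - 1) * pw (B - A - 1) t) ρ = 0 := by
  set k : ℝ → ℂ := fun t : ℝ => (t : ℂ) ^ (A - 1) * pw (B - A - 1) t with hk
  have K : Ker A.re k := ker_pw hA _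
  have i0 := K.integrable hρ
  have i1 := (K.pow_mul 1).integrable hρ
  have i2 := (K.pow_mul 2).integrable hρ
  set g : ℝ → ℂ := fun t => I * (((t : ℂ) ^ A * pw (B - A) t) * cexp (-(ρ * t))) with hg
  set g' : ℝ → ℂ := fun t => 4 * ρ * (((-(t : ℂ)) ^ 2 * k t) * cexp (-(ρ * t)))
    + (4 * (B : ℂ) + I * ρ) * (((-(t : ℂ)) ^ 1 * k t) * cexp (-(ρ * t)))
    + I * A * (k t * cexp (-(ρ * t))) with hg'
  have ig' : IntegrableOn g' (Ioi 0) :=
    ((i2.const_mul _).add (i1.const_mul _)).add (i0.const_mul _)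
  have hd : ∀ t ∈ Ioi (0 : ℝ), HasDerivAt g (g' t) t := by
    intro t ht
    have ht0 : (t : ℂ) ≠ 0 := ofReal_ne_zero.2 (ne_of_gt ht)
    have d1 : HasDerivAt (fun s : ℝ => (s : ℂ) ^ A) (A * (t : ℂ) ^ (A - 1)) t := by
      have := ((hasDerivAt_id (t : ℂ)).cpow_const (c := A)
        (ofReal_mem_slitPlane.2 ht)).comp_ofReal
      simp only [id, mul_one] at this
      exact this
    have d2 := pw_hasDerivAt (B - A) t
    have d3 : HasDerivAt (fun s : ℝ => -((ρ : ℂ) * s)) (-(ρ : ℂ)) t := by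
      have h0 := ((hasDerivAt_id t).ofReal_comp.const_mul (ρ : ℂ)).fun_neg
      simp only [id, ofReal_one, mul_one] at h0
      exact h0
    have d4 := ((d1.fun_mul d2).fun_mul d3.cexp).const_mul I
    refine d4.congr_deriv ?_
    have e1 : (t : ℂ) ^ A = (t : ℂ) ^ (A - 1) * t := by
      conv_lhs => rw [show A = (A - 1) + 1 by ring, cpow_add _ _ ht0, cpow_one]
    have e2 : pw (B - A) t = pw (B - A - 1) t * (1 + 4 * I * t) := by
      rw [← pw_succ]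
      congr 1
      ring
    simp only [hg', hk]
    rw [e1, e2]
    linear_combination (4 * (t : ℂ) ^ (A - 1) * pw (B - A - 1) t * cexp (-(ρ * t))
      * ((B : ℂ) * t - ρ * t ^ 2)) * I_mul_I
  have ig : IntegrableOn g (Ioi 0) := by
    have hA1 : 0 < (A + 1).re := by simp only [add_re, one_re]; linarith
    have := ((ker_pw hA1 (B - A)).integrable hρ).const_mul I
    simp only [add_sub_cancel_right] at this
    exact this
  have hlim := tendsto_zero_of_hasDerivAt_of_integrableOn_Ioi hd ig' ig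
  have hc : ContinuousWithinAt g (Ici 0) 0 := by
    refine ContinuousAt.continuousWithinAt ?_
    refine continuousAt_const.mul (((continuousAt_ofReal_cpow_const 0 A (Or.inl hA)).mul
      (pw_cont _).continuousAt).mul ?_)
    fun_prop
  have hI := integral_Ioi_of_hasDerivAt_of_tendsto hc hd ig' hlim
  have hA0 : A ≠ 0 := fun h => by simp [h] at hA
  have g0 : g 0 = 0 := by simp [hg, hA0]
  have i21 : IntegrableOn (fun t : ℝ => 4 * ρ * (((-(t : ℂ)) ^ 2 * k t) * cexp (-(ρ * t)))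
      + (4 * (B : ℂ) + I * ρ) * (((-(t : ℂ)) ^ 1 * k t) * cexp (-(ρ * t)))) (Ioi 0) :=
    (i2.const_mul _).add (i1.const_mul _)
  rw [g0, sub_zero] at hI
  simp only [hg'] at hI
  rw [integral_add i21 (i0.const_mul _),
    integral_add (i2.const_mul _) (i1.const_mul _), integral_const_mul, integral_const_mul,
    integral_const_mul] at hI
  rw [Mop, K.iter 2 hρ, ← iteratedDeriv_one, K.iter 1 hρ]
  exact hI

theorem lap_lower {A : ℂ} (hA : 0 < A.re) (c : ℂ) :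
    ∃ ρ₃ c' : ℝ, 0 < c' ∧ ∀ ρ : ℝ, ρ₃ ≤ ρ →
      c' * ρ ^ (-A.re) ≤ ‖lap (fun t : ℝ => (t : ℂ) ^ (A - 1) * pw c t) ρ‖ := by
  obtain ⟨C, hC⟩ := (ker_sub hA c).bound
  have hG : 0 < ‖Gamma A‖ := norm_pos_iff.2 (Gamma_ne_zero_of_re_pos hA)
  refine ⟨max 1 (2 * C / ‖Gamma A‖), ‖Gamma A‖ / 2, by linarith, fun ρ hρ => ?_⟩
  have h1 : 1 ≤ ρ := (le_max_left _ _).trans hρ
  have h2 : 2 * C / ‖Gamma A‖ ≤ ρ := (le_max_right _ _).trans hρ
  have hρ0 : 0 < ρ := by linarith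
  have e : lap (fun t : ℝ => (t : ℂ) ^ (A - 1) * pw c t) ρ
      = (1 / (ρ : ℂ)) ^ A * Gamma A + lap (fun t : ℝ => (t : ℂ) ^ (A - 1) * (pw c t - 1)) ρ := by
    rw [← integral_cpow_mul_exp_neg_mul_Ioi hA hρ0, lap, lap,
      ← integral_add ((ker_one hA).integrable hρ0) ((ker_sub hA c).integrable hρ0)]
    congr 1
    funext t
    ring
  have n1 : ‖(1 / (ρ : ℂ)) ^ A * Gamma A‖ = ρ ^ (-A.re) * ‖Gamma A‖ := by
    have : (1 / (ρ : ℂ)) = ((1 / ρ : ℝ) : ℂ) := by push_cast; rfl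
    rw [norm_mul, this, norm_cpow_eq_rpow_re_of_pos (by positivity), one_div,
      Real.inv_rpow hρ0.le, Real.rpow_neg hρ0.le]
  have n2 := hC ρ h1
  have e2 : ρ ^ (-(A.re + 1)) = ρ ^ (-A.re) / ρ := by
    rw [show -(A.re + 1) = -A.re - 1 by ring, Real.rpow_sub hρ0, Real.rpow_one]
  rw [e2] at n2
  have p : 0 < ρ ^ (-A.re) := by positivity
  have h3 : C / ρ ≤ ‖Gamma A‖ / 2 := by
    rw [div_le_iff₀ hG] at h2
    rw [div_le_iff₀ hρ0]
    linarith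
  have h4 : C * (ρ ^ (-A.re) / ρ) ≤ ‖Gamma A‖ / 2 * ρ ^ (-A.re) := by
    calc C * (ρ ^ (-A.re) / ρ) = C / ρ * ρ ^ (-A.re) := by ring
      _ ≤ _ := mul_le_mul_of_nonneg_right h3 p.le
  rw [e]
  have h5 := norm_sub_norm_le ((1 / (ρ : ℂ)) ^ A * Gamma A)
    (-lap (fun t : ℝ => (t : ℂ) ^ (A - 1) * (pw c t - 1)) ρ)
  rw [sub_neg_eq_add, norm_neg, n1] at h5
  linarith

theorem exists_out' {A : ℂ} (hA : 0 < A.re) (B : ℕ) :
    ∃ U : ℝ → ℂ, Symb (-A.re) U ∧ (∀ ρ : ℝ, 0 < ρ → Mop A B U ρ = 0) ∧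
      ∃ ρ₃ c : ℝ, 0 < c ∧ ∀ ρ : ℝ, ρ₃ ≤ ρ → c * ρ ^ (-A.re) ≤ ‖U ρ‖ :=
  ⟨_, (ker_pw hA (B - A - 1)).symb, fun _ hρ => lap_ode hA B hρ, lap_lower hA _⟩

end Vale.Agent.P139Z.Free
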