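import Vale.Agent.P139Z.OCalc

/-! Tools for symbols: asymptotic form, oscillatory integration, division. -/

open Set Filter Topology MeasureTheory Complex Asymptotics
open scoped NNReal ENNReal ComplexConjugate ContDiff

namespace Vale.Agent.P139Z.Free

variable {M : ℝ} {F : ℝ → ℂ}

theorem smooth_deriv (hF : ContDiffOn ℝ ∞ F (Ioi 0)) : ContDiffOn ℝ ∞ (deriv F) (Ioi 0) :=
  ((contDiffOn_infty_iff_deriv_of_isOpen isOpen_Ioi).1 hF).2

theorem smooth_iter (hF : ContDiffOn ℝ ∞ F (Ioi 0)) (j : ℕ) :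
    ContDiffOn ℝ ∞ (iteratedDeriv j F) (Ioi 0) := by
  induction j with
  | zero => simpa using hF
  | succ j ih =>
    rw [iteratedDeriv_succ]
    exact smooth_deriv ih

theorem smooth_at (hF : ContDiffOn ℝ ∞ F (Ioi 0)) (n : ℕ) {ρ : ℝ} (hρ : 0 < ρ) :
    ContDiffAt ℝ n F ρ :=
  (hF.contDiffAt (Ioi_mem_nhds hρ)).of_le (by exact_mod_cast le_top)

theorem has_deriv (hF : ContDiffOn ℝ ∞ F (Ioi 0)) {ρ : ℝ} (hρ : 0 < ρ) :
    HasDerivAt F (deriv F ρ) ρ :=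
  ((smooth_at hF 1 hρ).differentiableAt (by simp)).hasDerivAt

theorem isBigO_of_symb (h : Symb M F) (j : ℕ) :
    iteratedDeriv j F =O[atTop] fun ρ : ℝ => ρ ^ (M - j) := by
  obtain ⟨C, hC⟩ := h.bd j
  refine IsBigO.of_bound C ?_
  filter_upwards [eventually_ge_atTop 1] with ρ hρ
  rw [Real.norm_eq_abs, abs_of_nonneg (by positivity)]
  exact hC ρ hρ

theorem bound_of_isBigO {p : ℝ} (hF : ContinuousOn F (Ioi 0))
    (h : F =O[atTop] fun ρ : ℝ => ρ ^ p) : ∃ C : ℝ, ∀ ρ : ℝ, 1 ≤ ρ → ‖F ρ‖ ≤ C * ρ ^ p := by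
  obtain ⟨C, hC⟩ := h.bound
  obtain ⟨R, hR⟩ := eventually_atTop.1 hC
  have hc : ContinuousOn (fun ρ : ℝ => ‖F ρ‖ / ρ ^ p) (Icc 1 R) := by
    refine ContinuousOn.div (hF.mono fun x hx => ?_).norm ?_ fun x hx => ?_
    · exact lt_of_lt_of_le one_pos hx.1
    · exact continuousOn_id.rpow_const fun x hx => Or.inl (ne_of_gt (lt_of_lt_of_le one_pos hx.1))
    · exact ne_of_gt (Real.rpow_pos_of_pos (lt_of_lt_of_le one_pos hx.1) _)
  obtain ⟨C', hC'⟩ := isCompact_Icc.bddAbove_image hc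
  refine ⟨max C C', fun ρ hρ => ?_⟩
  have hp : 0 < ρ ^ p := Real.rpow_pos_of_pos (by linarith) _
  rcases le_total ρ R with h1 | h1
  · have : ‖F ρ‖ / ρ ^ p ≤ C' := hC' ⟨ρ, ⟨hρ, h1⟩, rfl⟩
    rw [div_le_iff₀ hp] at this
    exact this.trans (mul_le_mul_of_nonneg_right (le_max_right _ _) hp.le)
  · have := hR ρ h1
    rw [Real.norm_eq_abs, abs_of_pos hp] at this
    exact this.trans (mul_le_mul_of_nonneg_right (le_max_left _ _) hp.le)

theorem symb_of_isBigO (hF : ContDiffOn ℝ ∞ F (Ioi 0))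
    (h : ∀ j : ℕ, iteratedDeriv j F =O[atTop] fun ρ : ℝ => ρ ^ (M - j)) : Symb M F :=
  ⟨hF, fun j => bound_of_isBigO (smooth_iter hF j).continuousOn (h j)⟩

theorem tendsto_of_symb (h : Symb M F) (hM : M < 0) : Tendsto F atTop (𝓝 0) := by
  have h0 := isBigO_of_symb h 0
  simp only [iteratedDeriv_zero, Nat.cast_zero, sub_zero] at h0
  refine h0.trans_tendsto ?_
  have := tendsto_rpow_neg_atTop (y := -M) (by linarith)
  simpa using this

theorem integrableOn_of_symb (h : Symb M F) (hM : M < -1) {a : ℝ} (ha : 1 ≤ a) :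
    IntegrableOn F (Ioi a) := by
  obtain ⟨C, hC⟩ := h.bd 0
  simp only [iteratedDeriv_zero, Nat.cast_zero, sub_zero] at hC
  refine Integrable.mono' ((integrableOn_Ioi_rpow_of_lt hM (by linarith : 0 < a)).const_mul C)
    ?_ ?_
  · refine ContinuousOn.aestronglyMeasurable (h.smooth.continuousOn.mono fun x hx => ?_)
      measurableSet_Ioi
    exact lt_trans (by linarith : (0 : ℝ) < a) hx
  · filter_upwards [ae_restrict_mem measurableSet_Ioi] with t ht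
    exact hC t (ha.trans (le_of_lt ht))

theorem norm_osc (x : ℝ) : ‖cexp (I * x / 4)‖ = 1 := by
  rw [Complex.norm_exp]
  simp

theorem hasDerivAt_osc (x : ℝ) :
    HasDerivAt (fun x : ℝ => cexp (I * x / 4)) (cexp (I * x / 4) * (I / 4)) x := by
  have h0 := ((hasDerivAt_id x).ofReal_comp.const_mul I).div_const 4
  simp only [id, ofReal_one, mul_one] at h0
  exact h0.cexp

theorem integrableOn_osc (h : Symb M F) (hM : M < -1) {a : ℝ} (ha : 1 ≤ a) :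
    IntegrableOn (fun x : ℝ => cexp (I * x / 4) * F x) (Ioi a) := by
  have hi := integrableOn_of_symb h hM ha
  refine Integrable.mono' hi.norm ?_ ?_
  · refine AEStronglyMeasurable.mul ?_ hi.aestronglyMeasurable
    exact Continuous.aestronglyMeasurable (by fun_prop)
  · exact Eventually.of_forall fun x => by rw [norm_mul, norm_osc, one_mul]

theorem osc_zero {p : ℝ} {φ ψ : ℝ → ℂ} (hp : p < -1) (hφ : Symb p φ)
    (hψ : ContDiffOn ℝ ∞ ψ (Ioi 0)) (e : ∀ ρ : ℝ, 0 < ρ → deriv ψ ρ = -(I / 4) * ψ ρ + φ ρ)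
    (ht : Tendsto ψ atTop (𝓝 0)) : ∃ C : ℝ, ∀ ρ : ℝ, 1 ≤ ρ → ‖ψ ρ‖ ≤ C * ρ ^ (p + 1) := by
  obtain ⟨C, hC⟩ := hφ.bd 0
  simp only [iteratedDeriv_zero, Nat.cast_zero, sub_zero] at hC
  refine ⟨C / (-(p + 1)), fun ρ hρ => ?_⟩
  have hρ0 : 0 < ρ := by linarith
  have hd : ∀ x ∈ Ici ρ, HasDerivAt (fun x : ℝ => cexp (I * x / 4) * ψ x)
      (cexp (I * x / 4) * φ x) x := by
    intro x hx
    have hx0 : 0 < x := hρ0.trans_le hx
    refine ((hasDerivAt_osc x).fun_mul (has_deriv hψ hx0)).congr_deriv ?_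
    rw [e x hx0]
    ring
  have hlim : Tendsto (fun x : ℝ => cexp (I * x / 4) * ψ x) atTop (𝓝 0) := by
    rw [tendsto_zero_iff_norm_tendsto_zero] at ht ⊢
    refine ht.congr fun x => ?_
    rw [norm_mul, norm_osc, one_mul]
  have hI := integral_Ioi_of_hasDerivAt_of_tendsto' hd (integrableOn_osc hφ hp hρ) hlim
  have h1 : ‖ψ ρ‖ = ‖∫ x in Ioi ρ, cexp (I * x / 4) * φ x‖ := by
    rw [hI, zero_sub, norm_neg, norm_mul, norm_osc, one_mul]
  have h2 : ‖∫ x in Ioi ρ, cexp (I * x / 4) * φ x‖ ≤ ∫ x in Ioi ρ, C * x ^ p := by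
    refine norm_integral_le_of_norm_le ((integrableOn_Ioi_rpow_of_lt hp hρ0).const_mul C) ?_
    filter_upwards [ae_restrict_mem measurableSet_Ioi] with t ht
    rw [norm_mul, norm_osc, one_mul]
    exact hC t (hρ.trans (le_of_lt ht))
  rw [integral_const_mul, integral_Ioi_rpow_of_lt hp hρ0] at h2
  rw [h1]
  refine h2.trans (le_of_eq ?_)
  have : p + 1 ≠ 0 := by linarith
  field_simp

theorem osc_iter (j : ℕ) : ∀ {p : ℝ} {φ ψ : ℝ → ℂ}, p < -1 → Symb p φ →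
    ContDiffOn ℝ ∞ ψ (Ioi 0) → (∀ ρ : ℝ, 0 < ρ → deriv ψ ρ = -(I / 4) * ψ ρ + φ ρ) →
    Tendsto ψ atTop (𝓝 0) →
    ∃ C : ℝ, ∀ ρ : ℝ, 1 ≤ ρ → ‖iteratedDeriv j ψ ρ‖ ≤ C * ρ ^ (p + 1 - j) := by
  induction j with
  | zero =>
    intro p φ ψ hp hφ hψ e ht
    simpa using osc_zero hp hφ hψ e ht
  | succ j ih =>
    intro p φ ψ hp hφ hψ e ht
    have e' : ∀ ρ : ℝ, 0 < ρ → deriv (deriv ψ) ρ = -(I / 4) * deriv ψ ρ + deriv φ ρ := by
      intro ρ hρ
      have h1 : deriv ψ =ᶠ[𝓝 ρ] fun x => -(I / 4) * ψ x + φ x := by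
        filter_upwards [Ioi_mem_nhds hρ] with x hx
        exact e x hx
      rw [h1.deriv_eq]
      exact (((has_deriv hψ hρ).const_mul _).fun_add (has_deriv hφ.smooth hρ)).deriv
    have ht' : Tendsto (deriv ψ) atTop (𝓝 0) := by
      have h1 := (ht.const_mul (-(I / 4))).add (tendsto_of_symb hφ (by linarith))
      simp only [mul_zero, add_zero] at h1
      refine h1.congr' ?_
      filter_upwards [eventually_gt_atTop 0] with x hx
      exact (e x hx).symm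
    obtain ⟨C, hC⟩ := ih (by linarith : p - 1 < -1) hφ.der (smooth_deriv hψ) e' ht'
    refine ⟨C, fun ρ hρ => ?_⟩
    rw [iteratedDeriv_succ', show p + 1 - ((j + 1 : ℕ) : ℝ) = p - 1 + 1 - j by push_cast; ring]
    exact hC ρ hρ

/-- A decaying solution of `ψ' = -(i/4)ψ + φ` is a symbol. -/
theorem osc_symb {p : ℝ} {φ ψ : ℝ → ℂ} (hp : p < -1) (hφ : Symb p φ)
    (hψ : ContDiffOn ℝ ∞ ψ (Ioi 0)) (e : ∀ ρ : ℝ, 0 < ρ → deriv ψ ρ = -(I / 4) * ψ ρ + φ ρ)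
    (ht : Tendsto ψ atTop (𝓝 0)) : Symb (p + 1) ψ :=
  ⟨hψ, fun j => osc_iter j hp hφ hψ e ht⟩

theorem rpow_mul_isBigO (p q : ℝ) :
    (fun ρ : ℝ => ρ ^ p * ρ ^ q) =O[atTop] fun ρ : ℝ => ρ ^ (p + q) := by
  refine EventuallyEq.isBigO ?_
  filter_upwards [eventually_gt_atTop 0] with x hx
  rw [Real.rpow_add hx]

theorem isBigO_mul {p q r : ℝ} {f g : ℝ → ℂ} (hf : f =O[atTop] fun ρ : ℝ => ρ ^ p)
    (hg : g =O[atTop] fun ρ : ℝ => ρ ^ q) (h : p + q = r) :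
    (fun ρ => f ρ * g ρ) =O[atTop] fun ρ : ℝ => ρ ^ r :=
  h ▸ (hf.mul hg).trans (rpow_mul_isBigO p q)

theorem isBigO_div {a r ρ₃ c : ℝ} {f U : ℝ → ℂ} (hc : 0 < c)
    (hU : ∀ ρ : ℝ, ρ₃ ≤ ρ → c * ρ ^ (-a) ≤ ‖U ρ‖)
    (h : (fun ρ => f ρ * U ρ) =O[atTop] fun ρ : ℝ => ρ ^ (r - a)) :
    f =O[atTop] fun ρ : ℝ => ρ ^ r := by
  obtain ⟨C, hC⟩ := h.bound
  refine IsBigO.of_bound (C / c) ?_
  filter_upwards [hC, eventually_ge_atTop ρ₃, eventually_gt_atTop 0] with x h1 h2 hx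
  have p1 : 0 < x ^ (-a) := Real.rpow_pos_of_pos hx _
  have p2 : 0 < x ^ r := Real.rpow_pos_of_pos hx _
  rw [norm_mul, Real.norm_eq_abs, sub_eq_add_neg, Real.rpow_add hx,
    abs_of_pos (mul_pos p2 p1)] at h1
  rw [Real.norm_eq_abs, abs_of_pos p2]
  have h3 : ‖f x‖ * (c * x ^ (-a)) ≤ C * (x ^ r * x ^ (-a)) :=
    (mul_le_mul_of_nonneg_left (hU x h2) (norm_nonneg _)).trans h1
  have h4 : ‖f x‖ * c ≤ C * x ^ r := by
    have : (‖f x‖ * c) * x ^ (-a) ≤ (C * x ^ r) * x ^ (-a) := by linarith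
    exact le_of_mul_le_mul_right this p1
  rw [div_mul_eq_mul_div, le_div_iff₀ hc]
  exact h4

/-- A bounded solution of `y'U - yU' = θ` is a symbol of order zero. -/
theorem div_symb {a ρ₃ c : ℝ} {y U θ : ℝ → ℂ} (hc : 0 < c) (hU : Symb (-a) U)
    (hl : ∀ ρ : ℝ, ρ₃ ≤ ρ → c * ρ ^ (-a) ≤ ‖U ρ‖) (hθ : Symb (-a - 1) θ)
    (hy : ContDiffOn ℝ ∞ y (Ioi 0))
    (e : ∀ ρ : ℝ, 0 < ρ → deriv y ρ * U ρ = θ ρ + y ρ * deriv U ρ)
    (hb : y =O[atTop] fun ρ : ℝ => ρ ^ (0 : ℝ)) : Symb 0 y := by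
  refine symb_of_isBigO hy fun j => ?_
  induction j using Nat.strong_induction_on with
  | _ j ih =>
  rcases j with _ | n
  · simpa using hb
  have key : ∀ ρ : ℝ, 0 < ρ → iteratedDeriv (n + 1) y ρ * U ρ
      = iteratedDeriv n θ ρ
        + ∑ i ∈ Finset.range (n + 1),
          (n.choose i : ℂ) * (iteratedDeriv i y ρ * iteratedDeriv (n - i) (deriv U) ρ)
        - ∑ i ∈ Finset.range n,
          (n.choose i : ℂ) * (iteratedDeriv (i + 1) y ρ * iteratedDeriv (n - i) U ρ) := by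
    intro ρ hρ
    have h1 : (fun x => deriv y x * U x) =ᶠ[𝓝 ρ] fun x => θ x + y x * deriv U x := by
      filter_upwards [Ioi_mem_nhds hρ] with x hx
      exact e x hx
    have h2 := h1.iteratedDeriv_eq n
    rw [iteratedDeriv_fun_mul (smooth_at (smooth_deriv hy) n hρ) (smooth_at hU.smooth n hρ),
      iteratedDeriv_fun_add (smooth_at hθ.smooth n hρ)
        ((smooth_at hy n hρ).mul (smooth_at (smooth_deriv hU.smooth) n hρ)),
      iteratedDeriv_fun_mul (smooth_at hy n hρ) (smooth_at (smooth_deriv hU.smooth) n hρ),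
      Finset.sum_range_succ] at h2
    simp only [← iteratedDeriv_succ', Nat.choose_self, Nat.cast_one, one_mul, Nat.sub_self,
      iteratedDeriv_zero, mul_assoc] at h2 ⊢
    linear_combination h2
  refine isBigO_div hc hl ?_
  have hE : (fun ρ => iteratedDeriv (n + 1) y ρ * U ρ) =ᶠ[atTop] fun ρ => iteratedDeriv n θ ρ
        + ∑ i ∈ Finset.range (n + 1),
          (n.choose i : ℂ) * (iteratedDeriv i y ρ * iteratedDeriv (n - i) (deriv U) ρ)
        - ∑ i ∈ Finset.range n,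
          (n.choose i : ℂ) * (iteratedDeriv (i + 1) y ρ * iteratedDeriv (n - i) U ρ) := by
    filter_upwards [eventually_gt_atTop 0] with x hx
    exact key x hx
  refine hE.trans_isBigO (IsBigO.sub (IsBigO.add ?_ (IsBigO.fun_sum fun i hi => ?_))
    (IsBigO.fun_sum fun i hi => ?_))
  · have := isBigO_of_symb hθ n
    rwa [show -a - 1 - (n : ℝ) = 0 - ((n + 1 : ℕ) : ℝ) - a by push_cast; ring] at this
  · have hi' : i ≤ n := Nat.lt_succ_iff.1 (Finset.mem_range.1 hi)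
    refine (isBigO_mul (ih i (by omega)) (isBigO_of_symb hU.der (n - i)) ?_).const_mul_left _
    push_cast [Nat.cast_sub hi']
    ring
  · have hi' : i < n := Finset.mem_range.1 hi
    refine (isBigO_mul (ih (i + 1) (by omega)) (isBigO_of_symb hU (n - i)) ?_).const_mul_left _
    push_cast [Nat.cast_sub hi'.le]
    ring

end Vale.Agent.P139Z.Free
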