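import Vale.Agent.P139Z.ODefs

/-! Laplace transforms of kernels with a power singularity and polynomial growth are symbols. -/

open Set Filter Topology MeasureTheory Complex
open scoped NNReal ENNReal ComplexConjugate ContDiff

namespace Vale.Agent.P139Z.Free

/-- Kernels with a power singularity at zero and polynomial growth. -/
structure Ker (a : ℝ) (k : ℝ → ℂ) : Prop where
  pos : 0 < a
  cont : ContinuousOn k (Ioi 0)
  bd : ∃ C b : ℝ, 0 ≤ C ∧ a ≤ b ∧ ∀ t : ℝ, 0 < t → ‖k t‖ ≤ C * (t ^ (a - 1) + t ^ (b - 1))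

/-- The Laplace transform. -/
noncomputable def lap (k : ℝ → ℂ) (ρ : ℝ) : ℂ := ∫ t in Ioi (0 : ℝ), k t * cexp (-(ρ * t))

theorem int_pow {a r : ℝ} (ha : 0 < a) (hr : 0 < r) :
    IntegrableOn (fun t : ℝ => t ^ (a - 1) * Real.exp (-(r * t))) (Ioi 0) := by
  have h := integrableOn_rpow_mul_exp_neg_mul_rpow (p := 1) (s := a - 1) (b := r) (by linarith)
    one_pos hr
  refine h.congr_fun (fun t _ => ?_) measurableSet_Ioi
  simp only [Real.rpow_one, neg_mul]

theorem norm_exp_neg (ρ t : ℝ) : ‖cexp (-(ρ * t))‖ = Real.exp (-(ρ * t)) := by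
  rw [Complex.norm_exp]
  simp

namespace Ker

variable {a : ℝ} {k : ℝ → ℂ}

theorem neg_mul (h : Ker a k) : Ker (a + 1) (fun t => -(t : ℂ) * k t) := by
  obtain ⟨C, b, hC, hb, hk⟩ := h.bd
  refine ⟨by linarith [h.pos], ?_, C, b + 1, hC, by linarith, fun t ht => ?_⟩
  · exact (continuous_ofReal.continuousOn.neg).mul h.cont
  · rw [norm_mul, norm_neg, norm_real, Real.norm_eq_abs, abs_of_pos ht]
    have e1 : t ^ (a + 1 - 1) = t * t ^ (a - 1) := by
      rw [show a + 1 - 1 = 1 + (a - 1) by ring, Real.rpow_add ht, Real.rpow_one]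
    have e2 : t ^ (b + 1 - 1) = t * t ^ (b - 1) := by
      rw [show b + 1 - 1 = 1 + (b - 1) by ring, Real.rpow_add ht, Real.rpow_one]
    rw [e1, e2]
    calc t * ‖k t‖ ≤ t * (C * (t ^ (a - 1) + t ^ (b - 1))) :=
          mul_le_mul_of_nonneg_left (hk t ht) ht.le
      _ = _ := by ring

theorem pow_mul (h : Ker a k) (j : ℕ) : Ker (a + j) (fun t => (-(t : ℂ)) ^ j * k t) := by
  induction j with
  | zero => simpa using h
  | succ j ih =>
    have := ih.neg_mul
    have e : (fun t : ℝ => -(t : ℂ) * ((-(t : ℂ)) ^ j * k t))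
        = fun t : ℝ => (-(t : ℂ)) ^ (j + 1) * k t := by
      funext t
      ring
    rw [e] at this
    rwa [show a + ((j + 1 : ℕ) : ℝ) = a + j + 1 by push_cast; ring]

theorem meas (h : Ker a k) (ρ : ℝ) :
    AEStronglyMeasurable (fun t : ℝ => k t * cexp (-(ρ * t))) (volume.restrict (Ioi 0)) := by
  refine ContinuousOn.aestronglyMeasurable ?_ measurableSet_Ioi
  exact h.cont.mul (by fun_prop)

theorem dom (h : Ker a k) : ∃ C b : ℝ, 0 ≤ C ∧ a ≤ b ∧ ∀ r ρ : ℝ, r ≤ ρ → ∀ t : ℝ, 0 < t →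
    ‖k t * cexp (-(ρ * t))‖
      ≤ C * (t ^ (a - 1) * Real.exp (-(r * t)) + t ^ (b - 1) * Real.exp (-(r * t))) := by
  obtain ⟨C, b, hC, hb, hk⟩ := h.bd
  refine ⟨C, b, hC, hb, fun r ρ hr t ht => ?_⟩
  rw [norm_mul, norm_exp_neg]
  have h1 : Real.exp (-(ρ * t)) ≤ Real.exp (-(r * t)) := by
    apply Real.exp_le_exp.2
    nlinarith
  calc ‖k t‖ * Real.exp (-(ρ * t)) ≤ (C * (t ^ (a - 1) + t ^ (b - 1))) * Real.exp (-(r * t)) :=
        mul_le_mul (hk t ht) h1 (Real.exp_pos _).le (by positivity)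
    _ = _ := by ring

theorem integrable (h : Ker a k) {ρ : ℝ} (hρ : 0 < ρ) :
    IntegrableOn (fun t : ℝ => k t * cexp (-(ρ * t))) (Ioi 0) := by
  obtain ⟨C, b, -, hb, hk⟩ := h.dom
  refine Integrable.mono' (((int_pow h.pos hρ).add (int_pow (h.pos.trans_le hb) hρ)).const_mul C)
    (h.meas ρ) ?_
  filter_upwards [ae_restrict_mem measurableSet_Ioi] with t ht
  exact hk ρ ρ le_rfl t ht

theorem hasDerivAt (h : Ker a k) {ρ : ℝ} (hρ : 0 < ρ) :
    HasDerivAt (lap k) (lap (fun t => -(t : ℂ) * k t) ρ) ρ := by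
  obtain ⟨C, b, -, hb, hk⟩ := h.neg_mul.dom
  have h2 : 0 < ρ / 2 := by linarith
  have := hasDerivAt_integral_of_dominated_loc_of_deriv_le (μ := volume.restrict (Ioi (0 : ℝ)))
    (F := fun (x : ℝ) (t : ℝ) => k t * cexp (-(x * t))) (x₀ := ρ) (s := Ioi (ρ / 2))
    (F' := fun (x : ℝ) (t : ℝ) => (-(t : ℂ) * k t) * cexp (-(x * t)))
    (Ioi_mem_nhds (by linarith)) (Eventually.of_forall fun x => h.meas x) (h.integrable hρ)
    (h.neg_mul.meas ρ)
    (bound := fun t => C * (t ^ (a + 1 - 1) * Real.exp (-(ρ / 2 * t))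
      + t ^ (b - 1) * Real.exp (-(ρ / 2 * t)))) ?_
    (((int_pow h.neg_mul.pos h2).add (int_pow (h.neg_mul.pos.trans_le hb) h2)).const_mul C) ?_
  · exact this.2
  · filter_upwards [ae_restrict_mem measurableSet_Ioi] with t ht x hx
    exact hk (ρ / 2) x (le_of_lt hx) t ht
  · refine Eventually.of_forall fun t x _ => ?_
    have h1 : HasDerivAt (fun x : ℝ => -((x : ℂ) * t)) (-(t : ℂ)) x := by
      have h0 := ((hasDerivAt_id x).ofReal_comp.mul_const (t : ℂ)).fun_neg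
      simp only [id, ofReal_one, one_mul] at h0
      exact h0
    have h3 := (h1.cexp).const_mul (k t)
    refine h3.congr_deriv ?_
    ring

theorem bound (h : Ker a k) : ∃ C : ℝ, ∀ ρ : ℝ, 1 ≤ ρ → ‖lap k ρ‖ ≤ C * ρ ^ (-a) := by
  obtain ⟨C, b, hC, hb, hk⟩ := h.dom
  have hb0 : 0 < b := h.pos.trans_le hb
  refine ⟨C * (Real.Gamma a + Real.Gamma b), fun ρ hρ => ?_⟩
  have hρ0 : 0 < ρ := by linarith
  have h1 : ‖lap k ρ‖ ≤ ∫ t in Ioi (0 : ℝ),
      C * (t ^ (a - 1) * Real.exp (-(ρ * t)) + t ^ (b - 1) * Real.exp (-(ρ * t))) := by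
    refine norm_integral_le_of_norm_le
      (((int_pow h.pos hρ0).add (int_pow hb0 hρ0)).const_mul C) ?_
    filter_upwards [ae_restrict_mem measurableSet_Ioi] with t ht
    exact hk ρ ρ le_rfl t ht
  rw [integral_const_mul, integral_add (int_pow h.pos hρ0) (int_pow hb0 hρ0),
    Real.integral_rpow_mul_exp_neg_mul_Ioi h.pos hρ0,
    Real.integral_rpow_mul_exp_neg_mul_Ioi hb0 hρ0] at h1
  have e : ∀ c : ℝ, (1 / ρ) ^ c = ρ ^ (-c) := fun c => by
    rw [one_div, Real.inv_rpow hρ0.le, Real.rpow_neg hρ0.le]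
  rw [e, e] at h1
  have h2 : ρ ^ (-b) ≤ ρ ^ (-a) := Real.rpow_le_rpow_of_exponent_le hρ (by linarith)
  have h3 := (Real.Gamma_pos_of_pos hb0).le
  calc ‖lap k ρ‖ ≤ C * (ρ ^ (-a) * Real.Gamma a + ρ ^ (-b) * Real.Gamma b) := h1
    _ ≤ C * (ρ ^ (-a) * Real.Gamma a + ρ ^ (-a) * Real.Gamma b) := by gcongr
    _ = _ := by ring

theorem iter (h : Ker a k) (j : ℕ) {ρ : ℝ} (hρ : 0 < ρ) :
    iteratedDeriv j (lap k) ρ = lap (fun t => (-(t : ℂ)) ^ j * k t) ρ := by
  induction j generalizing ρ with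
  | zero => simp
  | succ j ih =>
    rw [iteratedDeriv_succ]
    have e : iteratedDeriv j (lap k) =ᶠ[𝓝 ρ] lap (fun t => (-(t : ℂ)) ^ j * k t) := by
      filter_upwards [Ioi_mem_nhds hρ] with x hx
      exact ih hx
    rw [e.deriv_eq, ((h.pow_mul j).hasDerivAt hρ).deriv]
    congr 1
    funext t
    ring

theorem contDiffOn_nat (n : ℕ) : ∀ {a : ℝ} {k : ℝ → ℂ}, Ker a k →
    ContDiffOn ℝ n (lap k) (Ioi 0) := by
  induction n with
  | zero =>
    intro a k h
    simp only [Nat.cast_zero, contDiffOn_zero]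
    exact fun x hx => (h.hasDerivAt hx).continuousAt.continuousWithinAt
  | succ n ih =>
    intro a k h
    rw [Nat.cast_succ, contDiffOn_succ_iff_deriv_of_isOpen isOpen_Ioi]
    refine ⟨fun x hx => (h.hasDerivAt hx).differentiableAt.differentiableWithinAt, by simp, ?_⟩
    exact (ih h.neg_mul).congr fun x hx => (h.hasDerivAt hx).deriv

theorem symb (h : Ker a k) : Symb (-a) (lap k) := by
  refine ⟨contDiffOn_infty.2 fun n => contDiffOn_nat n h, fun j => ?_⟩
  obtain ⟨C, hC⟩ := (h.pow_mul j).bound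
  refine ⟨C, fun ρ hρ => ?_⟩
  rw [h.iter j (by linarith), show -a - (j : ℝ) = -(a + j) by ring]
  exact hC ρ hρ

end Ker

end Vale.Agent.P139Z.Free
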